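import Mathlib

namespace Vale.Agent.Results.P262.PlaneSqrtThree
open Finset

/-- The squared Euclidean norm of a vector of `ℝ^d`. -/
def sq {d : ℕ} (x : Fin d → ℝ) : ℝ := ∑ j, (x j) ^ 2

/-- `e` is one of the two signs `+1`, `-1`. -/
def IsSign (e : ℝ) : Prop := e = 1 ∨ e = -1

def dot (a b : Fin 2 → ℝ) : ℝ := a 0 * b 0 + a 1 * b 1

lemma sq_two (a : Fin 2 → ℝ) : sq a = a 0 ^ 2 + a 1 ^ 2 := by
  simp [sq, Fin.sum_univ_two]

lemma sq_nonneg' {d : ℕ} (a : Fin d → ℝ) : 0 ≤ sq a := Finset.sum_nonneg (fun _ _ => sq_nonneg _)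

lemma sq_comb (a b : Fin 2 → ℝ) (s t : ℝ) :
    sq (s • a + t • b) = s ^ 2 * sq a + t ^ 2 * sq b + 2 * (s * t) * dot a b := by
  simp only [sq_two, dot, Pi.add_apply, Pi.smul_apply, smul_eq_mul]
  ring

lemma IsSign.sq_eq {e : ℝ} (h : IsSign e) : e ^ 2 = 1 := by
  rcases h with h | h <;> rw [h] <;> norm_num

lemma IsSign.mul {e f : ℝ} (h : IsSign e) (g : IsSign f) : IsSign (e * f) := by
  rcases h with h | h <;> rcases g with g | g <;> rw [h, g] <;> simp [IsSign]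

/-- Gram determinant of three planar vectors vanishes -/
lemma gram (a b c : Fin 2 → ℝ) :
    sq a * sq b * sq c + 2 * (dot a b * dot a c * dot b c)
      - sq a * dot b c ^ 2 - sq b * dot a c ^ 2 - sq c * dot a b ^ 2 = 0 := by
  simp only [sq_two, dot]
  ring

lemma planar (a b c : Fin 2 → ℝ) :
    sq a * sq b ≤ 4 * dot a b ^ 2 ∨ sq a * sq c ≤ 4 * dot a c ^ 2 ∨ sq b * sq c ≤ 4 * dot b c ^ 2 := by
  by_contra h
  push Not at h
  obtain ⟨h1, h2, h3⟩ := h
  have g := gram a b c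
  set A := sq a
  set B := sq b
  set C := sq c
  set x := dot a b
  set y := dot a c
  set z := dot b c
  have hA : 0 ≤ A := sq_nonneg' a
  have hB : 0 ≤ B := sq_nonneg' b
  have hC : 0 ≤ C := sq_nonneg' c
  have hAB : 0 < A * B := lt_of_le_of_lt (by positivity) h1
  have hA' : 0 < A := by
    rcases hA.eq_or_lt with h | h
    · rw [← h] at hAB; simp at hAB
    · exact h
  have hB' : 0 < B := by
    rcases hB.eq_or_lt with h | h
    · rw [← h] at hAB; simp at hAB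
    · exact h
  have hBC : 0 < B * C := lt_of_le_of_lt (by positivity) h3
  have hC' : 0 < C := by
    rcases hC.eq_or_lt with h | h
    · rw [← h] at hBC; simp at hBC
    · exact h
  -- (8xyz)^2 < (ABC)^2
  have k1 : (4 * x ^ 2) * (4 * y ^ 2) ≤ (A * B) * (A * C) :=
    mul_le_mul h1.le h2.le (by positivity) hAB.le
  have k2 : ((4 * x ^ 2) * (4 * y ^ 2)) * (4 * z ^ 2) ≤ ((A * B) * (A * C)) * (B * C) :=
    mul_le_mul k1 h3.le (by positivity) (by positivity)
  have k3 : (8 * (x * y * z)) ^ 2 ≤ (A * B * C) ^ 2 := by nlinarith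
  have k4 : |8 * (x * y * z)| ≤ |A * B * C| := sq_le_sq.1 k3
  rw [abs_of_pos (by positivity : 0 < A * B * C)] at k4
  have k5 := (abs_le.1 k4).1
  have m1 : C * (4 * x ^ 2) < C * (A * B) := mul_lt_mul_of_pos_left h1 hC'
  have m2 : B * (4 * y ^ 2) < B * (A * C) := mul_lt_mul_of_pos_left h2 hB'
  have m3 : A * (4 * z ^ 2) < A * (B * C) := mul_lt_mul_of_pos_left h3 hA'
  nlinarith

/-- merging -/
lemma merge (a b : Fin 2 → ℝ) (ha : sq a ≤ 1) (hb : sq b ≤ 1) (h : sq a * sq b ≤ 4 * dot a b ^ 2) :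
    ∃ δ : ℝ, IsSign δ ∧ sq ((1 : ℝ) • a + δ • b) ≤ 1 := by
  have hA := sq_nonneg' a
  have hB := sq_nonneg' b
  have key : sq a + sq b - 2 * |dot a b| ≤ 1 := by
    set m := 2 * |dot a b| with hm
    have hm0 : 0 ≤ m := by positivity
    have hm2 : sq a * sq b ≤ m ^ 2 := by
      rw [hm, mul_pow, sq_abs]; linarith
    rcases le_total (sq a) (sq b) with hab | hab
    · have : sq a ≤ m := by
        by_contra hc
        push Not at hc
        nlinarith
      linarith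
    · have : sq b ≤ m := by
        by_contra hc
        push Not at hc
        nlinarith
      linarith
  rcases le_total 0 (dot a b) with hd | hd
  · refine ⟨-1, Or.inr rfl, ?_⟩
    rw [sq_comb]
    rw [abs_of_nonneg hd] at key
    linarith
  · refine ⟨1, Or.inl rfl, ?_⟩
    rw [sq_comb]
    rw [abs_of_nonpos hd] at key
    linarith

lemma good_bound (p q : Fin 2 → ℝ) (hp : sq p ≤ 1) (hq : sq q ≤ 1)
    (h : 4 * dot p q ^ 2 ≤ sq p * sq q) {s t : ℝ} (hs : IsSign s) (ht : IsSign t) :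
    sq (s • p + t • q) ≤ 3 := by
  rw [sq_comb, hs.sq_eq, ht.sq_eq]
  have hP := sq_nonneg' p
  have hQ := sq_nonneg' q
  have h1 : 4 * dot p q ^ 2 ≤ 1 := by nlinarith
  have h2 : |2 * dot p q| ≤ 1 := by
    rw [← abs_one, ← sq_le_sq]; nlinarith
  have h3 := abs_le.1 h2
  rcases (hs.mul ht) with e | e <;> rw [e] <;> linarith [h3.1, h3.2]

lemma reduce3 (a b c : Fin 2 → ℝ) (ha : sq a ≤ 1) (hb : sq b ≤ 1) (hc : sq c ≤ 1)
    (h : sq a * sq b ≤ 4 * dot a b ^ 2) :
    ∃ p q : Fin 2 → ℝ, sq p ≤ 1 ∧ sq q ≤ 1 ∧ 4 * dot p q ^ 2 ≤ sq p * sq q ∧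
      ∀ s t : ℝ, IsSign s → IsSign t → ∃ α β γ : ℝ, IsSign α ∧ IsSign β ∧ IsSign γ ∧
        s • p + t • q = α • a + β • b + γ • c := by
  obtain ⟨δ, hδ, hr⟩ := merge a b ha hb h
  set r := (1 : ℝ) • a + δ • b with hrdef
  rcases le_total (4 * dot r c ^ 2) (sq r * sq c) with hg | hg
  · refine ⟨r, c, hr, hc, hg, ?_⟩
    intro s t hs ht
    refine ⟨s, s * δ, t, hs, hs.mul hδ, ht, ?_⟩
    rw [hrdef]
    funext j
    simp only [Pi.add_apply, Pi.smul_apply, smul_eq_mul]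
    ring
  · obtain ⟨δ', hδ', hr'⟩ := merge r c hr hc hg
    refine ⟨(1 : ℝ) • r + δ' • c, 0, hr', by simp [sq], by simp [dot, sq_two], ?_⟩
    intro s t hs ht
    refine ⟨s, s * δ, s * δ', hs, hs.mul hδ, hs.mul hδ', ?_⟩
    rw [hrdef]
    funext j
    simp only [Pi.add_apply, Pi.smul_apply, smul_eq_mul, Pi.zero_apply]
    ring

lemma dot_comm (a b : Fin 2 → ℝ) : dot a b = dot b a := by simp only [dot]; ring

lemma reduce3' (p q w : Fin 2 → ℝ) (hp : sq p ≤ 1) (hq : sq q ≤ 1) (hw : sq w ≤ 1) :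
    ∃ p' q' : Fin 2 → ℝ, sq p' ≤ 1 ∧ sq q' ≤ 1 ∧ 4 * dot p' q' ^ 2 ≤ sq p' * sq q' ∧
      ∀ s t : ℝ, IsSign s → IsSign t → ∃ α β γ : ℝ, IsSign α ∧ IsSign β ∧ IsSign γ ∧
        s • p' + t • q' = α • p + β • q + γ • w := by
  rcases planar p q w with h | h | h
  · exact reduce3 p q w hp hq hw h
  · obtain ⟨p', q', h1, h2, h3, h4⟩ := reduce3 p w q hp hw hq h
    refine ⟨p', q', h1, h2, h3, ?_⟩
    intro s t hs ht
    obtain ⟨α, β, γ, ha, hb, hc, e⟩ := h4 s t hs ht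
    refine ⟨α, γ, β, ha, hc, hb, ?_⟩
    rw [e]; abel
  · obtain ⟨p', q', h1, h2, h3, h4⟩ := reduce3 q w p hq hw hp h
    refine ⟨p', q', h1, h2, h3, ?_⟩
    intro s t hs ht
    obtain ⟨α, β, γ, ha, hb, hc, e⟩ := h4 s t hs ht
    refine ⟨γ, α, β, hc, ha, hb, ?_⟩
    rw [e]; abel

lemma pend (N : ℕ) : ∀ (v : ℕ → Fin 2 → ℝ), (∀ i, sq (v i) ≤ 1) → ∀ (p q : Fin 2 → ℝ),
    sq p ≤ 1 → sq q ≤ 1 → 4 * dot p q ^ 2 ≤ sq p * sq q →
    ∃ (s t : ℝ) (ε : ℕ → ℝ), IsSign s ∧ IsSign t ∧ (∀ i, IsSign (ε i)) ∧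
      ∀ k ≤ N, sq (s • p + t • q + ∑ i ∈ Finset.range k, ε i • v i) ≤ 3 := by
  induction N with
  | zero =>
    intro v _ p q hp hq hg
    refine ⟨1, 1, fun _ => 1, Or.inl rfl, Or.inl rfl, fun _ => Or.inl rfl, ?_⟩
    intro k hk
    have : k = 0 := by omega
    subst this
    simp only [Finset.range_zero, Finset.sum_empty, add_zero]
    exact good_bound p q hp hq hg (Or.inl rfl) (Or.inl rfl)
  | succ N ih =>
    intro v hv p q hp hq hg
    obtain ⟨p', q', h1, h2, h3, h4⟩ := reduce3' p q (v 0) hp hq (hv 0)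
    obtain ⟨s, t, ε, hs, ht, hε, hb⟩ := ih (fun i => v (i + 1)) (fun i => hv (i + 1)) p' q' h1 h2 h3
    obtain ⟨α, β, γ, ha, hbb, hc, e⟩ := h4 s t hs ht
    refine ⟨α, β, fun i => Nat.casesOn i γ ε, ha, hbb, ?_, ?_⟩
    · intro i
      cases i with
      | zero => exact hc
      | succ i => exact hε i
    · intro k hk
      cases k with
      | zero =>
        simp only [Finset.range_zero, Finset.sum_empty, add_zero]
        exact good_bound p q hp hq hg ha hbb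
      | succ k =>
        rw [Finset.sum_range_succ']
        have := hb k (by omega)
        rw [e] at this
        convert this using 2
        simp only
        abel

theorem upper (N : ℕ) (v : ℕ → Fin 2 → ℝ) (hv : ∀ i, sq (v i) ≤ 1) :
    ∃ ε : ℕ → ℝ, (∀ i, IsSign (ε i)) ∧
      ∀ k ≤ N, sq (∑ i ∈ Finset.range k, ε i • v i) ≤ 3 := by
  obtain ⟨s, t, ε, _, _, hε, hb⟩ := pend N v hv 0 0 (by simp [sq]) (by simp [sq]) (by simp [dot, sq_two])
  refine ⟨ε, hε, ?_⟩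
  intro k hk
  have := hb k hk
  simpa using this


/-! lower bound -/

def Forces {d : ℕ} (T : ℝ) (s : Fin d → ℝ) (N : ℕ) (v : ℕ → Fin d → ℝ) : Prop :=
  ∀ ε : ℕ → ℝ, (∀ i, IsSign (ε i)) → ∃ k ≤ N, T ≤ sq (s + ∑ i ∈ Finset.range k, ε i • v i)

lemma forces_of_ge {d : ℕ} {T : ℝ} {s : Fin d → ℝ} (h : T ≤ sq s) (N : ℕ) (v : ℕ → Fin d → ℝ) :
    Forces T s N v := by
  intro ε _
  exact ⟨0, Nat.zero_le _, by simpa using h⟩

lemma sq_neg {d : ℕ} (x : Fin d → ℝ) : sq (-x) = sq x := by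
  simp [sq]

lemma IsSign.neg {e : ℝ} (h : IsSign e) : IsSign (-e) := by
  rcases h with h | h <;> rw [h] <;> simp [IsSign]

lemma forces_neg {d : ℕ} {T : ℝ} {s : Fin d → ℝ} {N : ℕ} {v : ℕ → Fin d → ℝ}
    (h : Forces T s N v) : Forces T (-s) N v := by
  intro ε hε
  obtain ⟨k, hk, hT⟩ := h (fun i => - ε i) (fun i => (hε i).neg)
  refine ⟨k, hk, ?_⟩
  have : -s + ∑ i ∈ Finset.range k, ε i • v i = -(s + ∑ i ∈ Finset.range k, (- ε i) • v i) := by
    simp only [neg_smul, Finset.sum_neg_distrib]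
    abel
  rw [this, sq_neg]
  exact hT

lemma forces_cons {d : ℕ} {T : ℝ} {s w : Fin d → ℝ} {N : ℕ} {v : ℕ → Fin d → ℝ}
    (h1 : Forces T (s + w) N v) (h2 : Forces T (s - w) N v) :
    Forces T s (N + 1) (fun i => Nat.casesOn i w v) := by
  intro ε hε
  rcases hε 0 with h0 | h0
  · obtain ⟨k, hk, hT⟩ := h1 (fun i => ε (i + 1)) (fun i => hε (i + 1))
    refine ⟨k + 1, by omega, ?_⟩
    rw [Finset.sum_range_succ']
    simp only [h0, one_smul]
    convert hT using 2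
    abel
  · obtain ⟨k, hk, hT⟩ := h2 (fun i => ε (i + 1)) (fun i => hε (i + 1))
    refine ⟨k + 1, by omega, ?_⟩
    rw [Finset.sum_range_succ']
    simp only [h0, neg_smul, one_smul]
    convert hT using 2
    abel

lemma exists_w (s : Fin 2 → ℝ) (hs : 1 ≤ sq s) {x : ℝ} (hx0 : 0 ≤ x) (hx1 : x ≤ 1 / 2) :
    ∃ w : Fin 2 → ℝ, sq w = 1 ∧ dot s w = x := by
  set a := sq s with ha
  have ha0 : 0 < a := by linarith
  have hxa : 0 ≤ a - x ^ 2 := by nlinarith
  set y := Real.sqrt (a - x ^ 2) with hy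
  have hy2 : y ^ 2 = a - x ^ 2 := Real.sq_sqrt hxa
  have has : s 0 ^ 2 + s 1 ^ 2 = a := by rw [ha, sq_two]
  refine ⟨![(x * s 0 - y * s 1) / a, (x * s 1 + y * s 0) / a], ?_, ?_⟩
  · rw [sq_two]
    simp only [Matrix.cons_val_zero, Matrix.cons_val_one]
    have : ((x * s 0 - y * s 1) / a) ^ 2 + ((x * s 1 + y * s 0) / a) ^ 2
        = (x ^ 2 + y ^ 2) * (s 0 ^ 2 + s 1 ^ 2) / a ^ 2 := by
      field_simp
      ring
    rw [this, has, hy2]
    field_simp
    ring
  · simp only [dot, Matrix.cons_val_zero, Matrix.cons_val_one]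
    have : s 0 * ((x * s 0 - y * s 1) / a) + s 1 * ((x * s 1 + y * s 0) / a)
        = x * (s 0 ^ 2 + s 1 ^ 2) / a := by
      field_simp
      ring
    rw [this, has]
    field_simp

lemma sq_add (s w : Fin 2 → ℝ) : sq (s + w) = sq s + sq w + 2 * dot s w := by
  simp only [sq_two, dot, Pi.add_apply]; ring

lemma sq_sub (s w : Fin 2 → ℝ) : sq (s - w) = sq s + sq w - 2 * dot s w := by
  simp only [sq_two, dot, Pi.sub_apply]; ring

lemma kill (T : ℝ) (n : ℕ) : ∀ s : Fin 2 → ℝ, 1 ≤ sq s → 1 ≤ (sq s - (T - 2)) * 2 ^ n →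
    ∃ (N : ℕ) (v : ℕ → Fin 2 → ℝ), (∀ i, sq (v i) ≤ 1) ∧ Forces T s N v := by
  have base : ∀ s : Fin 2 → ℝ, 1 ≤ sq s → 1 ≤ sq s - (T - 2) →
      ∃ (N : ℕ) (v : ℕ → Fin 2 → ℝ), (∀ i, sq (v i) ≤ 1) ∧ Forces T s N v := by
    intro s hs hd
    obtain ⟨w, hw1, hw2⟩ := exists_w s hs (le_refl 0) (by norm_num)
    refine ⟨0 + 1, fun i => Nat.casesOn i w (fun _ => w), ?_, ?_⟩
    · intro i
      cases i <;> simp [hw1]
    · apply forces_cons
      · apply forces_of_ge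
        rw [sq_add, hw1, hw2]; linarith
      · apply forces_of_ge
        rw [sq_sub, hw1, hw2]; linarith
  induction n with
  | zero =>
    intro s hs hd
    exact base s hs (by simpa using hd)
  | succ n ih =>
    intro s hs hd
    rcases le_or_gt 1 (sq s - (T - 2)) with h | h
    · exact base s hs h
    · set δ := sq s - (T - 2) with hδ
      have hδ0 : 0 < δ := by
        by_contra hc
        push Not at hc
        have : δ * 2 ^ (n + 1) ≤ 0 := mul_nonpos_of_nonpos_of_nonneg hc (by positivity)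
        linarith
      obtain ⟨w, hw1, hw2⟩ := exists_w s hs (x := (1 - δ) / 2) (by linarith) (by linarith)
      have hm : sq (s - w) = sq s + δ := by
        rw [sq_sub, hw1, hw2]; ring
      obtain ⟨N, v, hv, hF⟩ := ih (s - w) (by rw [hm]; linarith) (by
        rw [hm]
        have : sq s + δ - (T - 2) = 2 * δ := by rw [hδ]; ring
        rw [this]
        calc (1 : ℝ) ≤ δ * 2 ^ (n + 1) := hd
          _ = 2 * δ * 2 ^ n := by ring)
      refine ⟨N + 1, fun i => Nat.casesOn i w v, ?_, ?_⟩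
      · intro i
        cases i with
        | zero => simp [hw1]
        | succ i => exact hv i
      · apply forces_cons
        · apply forces_of_ge
          rw [sq_add, hw1, hw2, hδ]; linarith
        · exact hF

lemma planar_lower (T : ℝ) (hT : T < 3) :
    ∃ (N : ℕ) (v : ℕ → Fin 2 → ℝ), (∀ i, sq (v i) ≤ 1) ∧ Forces T 0 N v := by
  have hu : sq (![1, 0] : Fin 2 → ℝ) = 1 := by simp [sq_two]
  obtain ⟨n, hn⟩ : ∃ n : ℕ, 1 ≤ (3 - T) * 2 ^ n := by
    obtain ⟨n, hn⟩ := pow_unbounded_of_one_lt (1 / (3 - T)) (by norm_num : (1 : ℝ) < 2)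
    refine ⟨n, ?_⟩
    have h3 : 0 < 3 - T := by linarith
    rw [div_lt_iff₀ h3] at hn
    linarith
  obtain ⟨N, v, hv, hF⟩ := kill T n ![1, 0] (by rw [hu]) (by
    rw [hu]
    have : (1 : ℝ) - (T - 2) = 3 - T := by ring
    rw [this]; exact hn)
  refine ⟨N + 1, fun i => Nat.casesOn i ![1, 0] v, ?_, ?_⟩
  · intro i
    cases i with
    | zero => simp [hu]
    | succ i => exact hv i
  · apply forces_cons
    · simpa using hF
    · have := forces_neg hF
      simpa using this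

lemma sq_cons {d : ℕ} (t : ℝ) (x : Fin d → ℝ) :
    sq (Fin.cons t x : Fin (d + 1) → ℝ) = t ^ 2 + sq x := by
  simp [sq, Fin.sum_univ_succ]

lemma lift {d : ℕ} {T : ℝ}
    (h : ∃ (N : ℕ) (v : ℕ → Fin d → ℝ), (∀ i, sq (v i) ≤ 1) ∧ Forces T 0 N v) :
    ∃ (N : ℕ) (v : ℕ → Fin (d + 1) → ℝ), (∀ i, sq (v i) ≤ 1) ∧ Forces (T + 1) 0 N v := by
  obtain ⟨N, v, hv, hF⟩ := h
  refine ⟨N + 1, fun i => Nat.casesOn i (Fin.cons 1 0) (fun i => Fin.cons 0 (v i)), ?_, ?_⟩
  · intro i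
    cases i with
    | zero =>
      show sq (Fin.cons 1 0 : Fin (d + 1) → ℝ) ≤ 1
      rw [sq_cons]; simp [sq]
    | succ i =>
      show sq (Fin.cons 0 (v i) : Fin (d + 1) → ℝ) ≤ 1
      rw [sq_cons]
      have := hv i
      simpa using this
  · intro ε hε
    obtain ⟨k, hk, hT⟩ := hF (fun i => ε (i + 1)) (fun i => hε (i + 1))
    refine ⟨k + 1, by omega, ?_⟩
    have key : (∑ i ∈ Finset.range (k + 1), ε i •
        (Nat.casesOn i (Fin.cons 1 0) (fun i => Fin.cons 0 (v i)) : Fin (d + 1) → ℝ))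
        = Fin.cons (ε 0) (∑ i ∈ Finset.range k, ε (i + 1) • v i) := by
      rw [Finset.sum_range_succ']
      funext j
      refine Fin.cases ?_ (fun j => ?_) j
      · simp [Finset.sum_apply]
      · simp [Finset.sum_apply]
    rw [zero_add, key, sq_cons, (hε 0).sq_eq]
    rw [zero_add] at hT
    linarith

theorem lower (d : ℕ) (hd : 2 ≤ d) : ∀ T : ℝ, T < d + 1 →
    ∃ (N : ℕ) (v : ℕ → Fin d → ℝ), (∀ i, sq (v i) ≤ 1) ∧ Forces T 0 N v := by
  induction d, hd using Nat.le_induction with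
  | base =>
    intro T hT
    exact planar_lower T (by norm_num at hT; linarith)
  | succ d _ ih =>
    intro T hT
    have := lift (ih (T - 1) (by push_cast at hT; linarith))
    simpa using this


/-- Signed prefix sums in the Euclidean plane and a lower bound in every dimension.

First part: every finite sequence in the unit disc of `ℝ^2` has signs for which all prefix sums have
squared norm at most `3`, so `σ(2) ≤ √3`.

Second part: for every `d ≥ 2` and every `T < d + 1` there is a finite sequence in the unit ball of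
`ℝ^d` such that every signing has a prefix sum of squared norm at least `T`, so
`σ(d) ≥ √(d+1)`; with the first part, `σ(2) = √3`. -/
theorem result :
    (∀ (N : ℕ) (v : ℕ → Fin 2 → ℝ), (∀ i < N, sq (v i) ≤ 1) →
      ∃ ε : ℕ → ℝ, (∀ i, IsSign (ε i)) ∧
        ∀ k ≤ N, sq (∑ i ∈ Finset.range k, ε i • v i) ≤ 3) ∧
    (∀ d : ℕ, 2 ≤ d → ∀ T : ℝ, T < d + 1 →
      ∃ (N : ℕ) (v : ℕ → Fin d → ℝ), (∀ i, sq (v i) ≤ 1) ∧
        ∀ ε : ℕ → ℝ, (∀ i, IsSign (ε i)) →
          ∃ k ≤ N, T ≤ sq (∑ i ∈ Finset.range k, ε i • v i)) := by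
  refine ⟨?_, ?_⟩
  · intro N v hv
    obtain ⟨ε, hε, hb⟩ := upper N (fun i => if i < N then v i else 0) (by
      intro i
      by_cases h : i < N
      · simpa [h] using hv i h
      · simp [h, sq])
    refine ⟨ε, hε, ?_⟩
    intro k hk
    have h1 := hb k hk
    have h2 : ∑ i ∈ Finset.range k, ε i • (if i < N then v i else 0)
        = ∑ i ∈ Finset.range k, ε i • v i := by
      refine Finset.sum_congr rfl (fun i hi => ?_)
      have : i < N := lt_of_lt_of_le (Finset.mem_range.1 hi) hk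
      simp [this]
    rwa [h2] at h1
  intro d hd T hT
  obtain ⟨N, v, hv, hF⟩ := lower d hd T hT
  refine ⟨N, v, hv, ?_⟩
  intro ε hε
  obtain ⟨k, hk, h⟩ := hF ε hε
  exact ⟨k, hk, by simpa using h⟩

end Vale.Agent.Results.P262.PlaneSqrtThree
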